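import Vale.Agent.P019.H654.Main

/-!
# Full faithfulness of the reconstruction of function fields from mod-ℓ Milnor K-theory
-/

namespace Vale.Agent.Results.P019.FullyFaithful

open Vale.Agent.P019

/-- Let `K/k` and `L/l` be function fields over algebraically closed fields, `ℓ` a prime invertible
in `k` and in `l`, and let only `K/k` be of transcendence degree at least two (`L/l` is arbitrary).
Let `K'`, `L'` be perfect closures of `K`, `L`: perfect fields, purely inseparable over `K`, `L` (in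
characteristic zero `K' = K` and `L' = L`).
(1) Every compatible isomorphism `Θ : V_K → V_L` is of the form `c • α_*` with `c ∈ (ℤ/ℓ)ˣ` and
`α : K' → L'` an isomorphism of fields with `α(k) = l`: if `Θ[x] = [y]` in `V_L`, then
`[y] = c • [α(x)]` in `V_{L'}`.
(2) Every isomorphism of fields `α : K' → L'` satisfies `α(k) = l`, and for every `c` exactly one
isomorphism `Θ : V_K → V_L` is compatible and equal to `c • α_*`.
(3) The pair `(c, α)` is unique up to powers of Frobenius: if `Θ = c • α_*`, then `Θ = c' • α'_*`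
if and only if `(c', α')` and `(c, α)` differ by a power of Frobenius (in characteristic zero:
`c' = c` and `α' = α`). -/
theorem result (ℓ : ℕ) [Fact ℓ.Prime] {k K l L : Type*} [Field k] [Field K] [Field l] [Field L]
    [Algebra k K] [Algebra l L] [IsAlgClosed k] [IsAlgClosed l]
    (hℓk : (ℓ : k) ≠ 0) (hℓl : (ℓ : l) ≠ 0)
    (hK : (⊤ : IntermediateField k K).FG) (hL : (⊤ : IntermediateField l L).FG)
    (hKtr : 2 ≤ Algebra.trdeg k K)
    {K' L' : Type*} [Field K'] [Field L'] [Algebra K K'] [Algebra L L']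
    [PerfectField K'] [PerfectField L'] [IsPurelyInseparable K K'] [IsPurelyInseparable L L'] :
    (∀ Θ : V ℓ K ≃ₗ[ZMod ℓ] V ℓ L, Compatible Θ →
      ∃ (c : (ZMod ℓ)ˣ) (α : K' ≃+* L'),
        α '' Set.range (fun a : k => algebraMap K K' (algebraMap k K a)) =
          Set.range (fun b : l => algebraMap L L' (algebraMap l L b)) ∧
        ∀ (x : Kˣ) (y : Lˣ), Θ (V.mk ℓ x) = V.mk ℓ y →
          V.mk ℓ (Units.map (algebraMap L L' : L →* L') y) =
            (c : ZMod ℓ) • V.mk ℓ (Units.map (α : K' →* L')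
              (Units.map (algebraMap K K' : K →* K') x))) ∧
    (∀ α : K' ≃+* L',
      α '' Set.range (fun a : k => algebraMap K K' (algebraMap k K a)) =
        Set.range (fun b : l => algebraMap L L' (algebraMap l L b)) ∧
      ∀ c : (ZMod ℓ)ˣ, ∃! Θ : V ℓ K ≃ₗ[ZMod ℓ] V ℓ L, Compatible Θ ∧ Induces Θ c α) ∧
    ∀ (Θ : V ℓ K ≃ₗ[ZMod ℓ] V ℓ L) (c : (ZMod ℓ)ˣ) (α : K' ≃+* L'), Induces Θ c α →
      ∀ (c' : (ZMod ℓ)ˣ) (α' : K' ≃+* L'), Induces Θ c' α' ↔ FrobTwist c α c' α' := by
  have h1 : NeZero (ℓ : K) := ⟨by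
    rw [← map_natCast (algebraMap k K), Ne, map_eq_zero]; exact hℓk⟩
  have h2 : NeZero (ℓ : L) := ⟨by
    rw [← map_natCast (algebraMap l L), Ne, map_eq_zero]; exact hℓl⟩
  have h3 : NeZero (ℓ : K') := ⟨by
    rw [← map_natCast (algebraMap K K'), Ne, map_eq_zero]; exact h1.out⟩
  have h4 : NeZero (ℓ : L') := ⟨by
    rw [← map_natCast (algebraMap L L'), Ne, map_eq_zero]; exact h2.out⟩
  have : Algebra.EssFiniteType k K := IntermediateField.fg_top_iff.1 hK
  have : Algebra.EssFiniteType l L := IntermediateField.fg_top_iff.1 hL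
  have hkc : IsAlgClosed (P019P.cst' k K K') := P019P.isAlgClosed_cst'
  have hlc : IsAlgClosed (P019P.cst' l L L') := P019P.isAlgClosed_cst'
  have hkf : P019P.FG (P019P.cst' k K K') (⊤ : Subfield K') := P019P.fg_cst'
  have hlf : P019P.FG (P019P.cst' l L L') (⊤ : Subfield L') := P019P.fg_cst'
  have htr := P019P.exists_two' (K' := K') hKtr
  have hconst : ∀ α : K' ≃+* L', (∀ x, x ∈ P019P.cst' k K K' ↔ α x ∈ P019P.cst' l L L') →
      α '' Set.range (fun a : k => algebraMap K K' (algebraMap k K a)) =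
        Set.range (fun b : l => algebraMap L L' (algebraMap l L b)) := by
    intro α h5
    ext y
    constructor
    · rintro ⟨_, ⟨a, rfl⟩, rfl⟩
      obtain ⟨b, hb⟩ := P019P.mem_cst'.1 ((h5 _).1 (P019P.mem_cst'.2 ⟨a, rfl⟩))
      exact ⟨b, hb⟩
    · rintro ⟨b, rfl⟩
      have h7 : α (α.symm (algebraMap L L' (algebraMap l L b))) ∈ P019P.cst' l L L' := by
        rw [RingEquiv.apply_symm_apply]
        exact P019P.mem_cst'.2 ⟨b, rfl⟩
      obtain ⟨a, ha⟩ := P019P.mem_cst'.1 ((h5 _).2 h7)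
      exact ⟨_, ⟨a, ha⟩, RingEquiv.apply_symm_apply _ _⟩
  refine ⟨?_, ?_, ?_⟩
  · intro Θ hΘ
    let Θ' : V ℓ K' ≃ₗ[ZMod ℓ] V ℓ L' :=
      ((P019P.perfV ℓ K K').symm.trans Θ).trans (P019P.perfV ℓ L L')
    have hΘ' : Compatible Θ' :=
      P019P.Compatible.trans (P019P.Compatible.trans P019P.perfV_compatible.symm hΘ)
        P019P.perfV_compatible
    obtain ⟨c, α, h5, h6⟩ : ∃ (c : (ZMod ℓ)ˣ) (α : K' ≃+* L'),
        (∀ x, x ∈ P019P.cst' k K K' ↔ α x ∈ P019P.cst' l L L') ∧
        ∀ x : K', Θ' (cl ℓ x) = (c : ZMod ℓ) • cl ℓ (α x) :=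
      P019P.main_gen hkc hkf hlc hlf hΘ' htr (P019P.H654.two_of_compatible hkc hkf hlc hΘ' htr)
    refine ⟨c, α, hconst α h5, ?_⟩
    intro x y hxy
    have h7 := h6 (algebraMap K K' (x : K))
    have h8 : Θ' (cl ℓ (algebraMap K K' (x : K))) = cl ℓ (algebraMap L L' (y : L)) := by
      rw [← Vmap_cl, ← Vmap_cl, cl_unit, cl_unit, ← hxy]
      change P019P.perfV ℓ L L' (Θ ((P019P.perfV ℓ K K').symm (P019P.perfV ℓ K K' _))) = _
      rw [LinearEquiv.symm_apply_apply]
      rfl
    rw [h8] at h7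
    rw [← cl_unit, ← cl_unit]
    exact h7
  · intro α
    exact ⟨hconst α (P019P.H654.const_iff hkc hkf hlc hlf ℓ α),
      fun c => P019P.H654.exists_unique_induced c α⟩
  · intro Θ c α h c' α'
    exact ⟨fun h' => P019P.H654.twist_of_induces hkc hkf htr h h',
      fun ht => P019P.H654.induces_of_twist h ht⟩

end Vale.Agent.Results.P019.FullyFaithful
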