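import Vale.Agent.P019.H654.Plain

/-!
# Reconstruction of function fields and of all their relatively algebraically closed subfields
from mod-ℓ Milnor K-theory
-/

open scoped TensorProduct

namespace Vale.Agent.Results.P019.MilnorSubfields

open Vale.Agent.P019 Vale.Agent.P019P Vale.Agent.P019P.H654

/-- Let `K/k`, `L/l` be function fields over algebraically closed fields, `ℓ` a prime invertible in
`k` and in `l`, and let `K/k` be of transcendence degree at least two (`L/l` is arbitrary). Let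
`K'`, `L'` be perfect closures of `K`, `L` (perfect fields, purely inseparable over `K`, `L`; in
characteristic zero `K' = K`, `L' = L`). `V_F = Fˣ / (Fˣ)^ℓ`, written additively, is Mathlib's
`ModN (Additive Fˣ) ℓ`, an `𝔽_ℓ`-space, with the class `[x] = ModN.mkQ ℓ (ofMul x)` of `x`, and
`R_F` in `V_F ⊗ V_F` is the span of the `[x] ⊗ [1 - x]`.

Let `Θ : V_K → V_L` be a linear isomorphism with `(Θ ⊗ Θ)(R_K) = R_L`.
(1) `Θ = c • α_*` for some `c ∈ 𝔽_ℓˣ` and an isomorphism of fields `α : K' → L'` with `α(k) = l`: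
if `Θ[x] = [y]`, then `[y] = c • [α(x)]` in `V_{L'}`.
(2) `Θ` matches the subfields: there is an isomorphism of ordered sets `φ` from the relatively
algebraically closed subfields `k ⊆ E ⊆ K` to the relatively algebraically closed subfields
`l ⊆ F ⊆ L` such that `φ(E)` is the only `F` whose classes are the images under `Θ` of the classes
of `E`, and `α` maps the perfect closure of `E` in `K'` onto that of `φ(E)` in `L'`. -/
theorem result (ℓ : ℕ) [Fact ℓ.Prime] {k K l L : Type*} [Field k] [Field K] [Field l] [Field L]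
    [Algebra k K] [Algebra l L] [IsAlgClosed k] [IsAlgClosed l]
    (hℓk : (ℓ : k) ≠ 0) (hℓl : (ℓ : l) ≠ 0)
    (hK : (⊤ : IntermediateField k K).FG) (hL : (⊤ : IntermediateField l L).FG)
    (hKtr : 2 ≤ Algebra.trdeg k K)
    {K' L' : Type*} [Field K'] [Field L'] [Algebra K K'] [Algebra L L']
    [PerfectField K'] [PerfectField L'] [IsPurelyInseparable K K'] [IsPurelyInseparable L L']
    (Θ : ModN (Additive Kˣ) ℓ ≃ₗ[ZMod ℓ] ModN (Additive Lˣ) ℓ)
    (hΘ : (Submodule.span (ZMod ℓ) {t | ∃ x y : Kˣ, (x : K) + (y : K) = 1 ∧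
          t = ModN.mkQ ℓ (Additive.ofMul x) ⊗ₜ[ZMod ℓ] ModN.mkQ ℓ (Additive.ofMul y)}).map
        (TensorProduct.map Θ.toLinearMap Θ.toLinearMap) =
      Submodule.span (ZMod ℓ) {t | ∃ x y : Lˣ, (x : L) + (y : L) = 1 ∧
          t = ModN.mkQ ℓ (Additive.ofMul x) ⊗ₜ[ZMod ℓ] ModN.mkQ ℓ (Additive.ofMul y)}) :
    ∃ (c : (ZMod ℓ)ˣ) (α : K' ≃+* L'),
      -- (1)
      α '' Set.range (fun a : k => algebraMap K K' (algebraMap k K a)) =
        Set.range (fun b : l => algebraMap L L' (algebraMap l L b)) ∧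
      (∀ (x : Kˣ) (y : Lˣ),
        Θ (ModN.mkQ ℓ (Additive.ofMul x)) = ModN.mkQ ℓ (Additive.ofMul y) →
        ModN.mkQ ℓ (Additive.ofMul (Units.map (algebraMap L L' : L →* L') y)) =
          (c : ZMod ℓ) • ModN.mkQ ℓ (Additive.ofMul (Units.map (α : K' →* L')
            (Units.map (algebraMap K K' : K →* K') x)))) ∧
      -- (2)
      ∃ φ : {E : IntermediateField k K // ∀ x : K, IsAlgebraic E x → x ∈ E} ≃o
          {F : IntermediateField l L // ∀ y : L, IsAlgebraic F y → y ∈ F},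
        (∀ E F, φ E = F ↔
          Θ '' {v | ∃ x : Kˣ, (x : K) ∈ E.1 ∧ v = ModN.mkQ ℓ (Additive.ofMul x)} =
            {w | ∃ y : Lˣ, (y : L) ∈ F.1 ∧ w = ModN.mkQ ℓ (Additive.ofMul y)}) ∧
        ∀ E, α '' {x : K' | ∃ (m : ℕ) (e : K), e ∈ E.1 ∧
              algebraMap K K' e = x ^ ringExpChar K ^ m} =
            {y : L' | ∃ (m : ℕ) (f : L), f ∈ (φ E).1 ∧
              algebraMap L L' f = y ^ ringExpChar L ^ m} := by
  have h1 : NeZero (ℓ : K) := ⟨by
    rw [← map_natCast (algebraMap k K), Ne, map_eq_zero]; exact hℓk⟩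
  have h2 : NeZero (ℓ : L) := ⟨by
    rw [← map_natCast (algebraMap l L), Ne, map_eq_zero]; exact hℓl⟩
  have h3 : NeZero (ℓ : K') := ⟨by
    rw [← map_natCast (algebraMap K K'), Ne, map_eq_zero]; exact h1.out⟩
  have h4 : NeZero (ℓ : L') := ⟨by
    rw [← map_natCast (algebraMap L L'), Ne, map_eq_zero]; exact h2.out⟩
  have : Algebra.EssFiniteType k K := IntermediateField.fg_top_iff.1 hK
  have : Algebra.EssFiniteType l L := IntermediateField.fg_top_iff.1 hL
  have hkc : IsAlgClosed (cst' k K K') := isAlgClosed_cst'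
  have hlc : IsAlgClosed (cst' l L L') := isAlgClosed_cst'
  have hkf : P019P.FG (cst' k K K') (⊤ : Subfield K') := fg_cst'
  have hlf : P019P.FG (cst' l L L') (⊤ : Subfield L') := fg_cst'
  obtain ⟨c, α, h5, h6⟩ := core (K' := K') (L' := L') (k := k) (l := l) hKtr
    (compatible_conj Θ hΘ)
  have hmk : ∀ (x : Kˣ) (y : Lˣ), Θ (md ℓ x) = md ℓ y ↔ conj Θ (V.mk ℓ x) = V.mk ℓ y := by
    intro x y
    rw [conj_mk, ← bet_md, (bet ℓ L).injective.eq_iff]
  refine ⟨c, α, ?_, ?_, ?_⟩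
  · ext y
    constructor
    · rintro ⟨_, ⟨a, rfl⟩, rfl⟩
      obtain ⟨b, hb⟩ := mem_cst'.1 ((h5 _).1 (mem_cst'.2 ⟨a, rfl⟩))
      exact ⟨b, hb⟩
    · rintro ⟨b, rfl⟩
      have h7 : α (α.symm (algebraMap L L' (algebraMap l L b))) ∈ cst' l L L' := by
        rw [RingEquiv.apply_symm_apply]
        exact mem_cst'.2 ⟨b, rfl⟩
      obtain ⟨a, ha⟩ := mem_cst'.1 ((h5 _).2 h7)
      exact ⟨_, ⟨a, ha⟩, RingEquiv.apply_symm_apply _ _⟩
  · intro x y hxy
    have h7 := h6 (V.mk ℓ x)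
    rw [(hmk x y).1 hxy, ← cl_unit, ← cl_unit] at h7
    have h9 : perfV ℓ L L' (cl ℓ (y : L)) = cl ℓ (algebraMap L L' y) := Vmap_cl ℓ _ _
    have h10 : perfV ℓ K K' (cl ℓ (x : K)) = cl ℓ (algebraMap K K' x) := Vmap_cl ℓ _ _
    rw [h9, h10, Veq_cl] at h7
    change md ℓ (Units.map (algebraMap L L' : L →* L') y) = (c : ZMod ℓ) •
      md ℓ (Units.map (α : K' →* L') (Units.map (algebraMap K K' : K →* K') x))
    apply (bet ℓ L').injective
    rw [map_smul, bet_md, bet_md, ← cl_unit, ← cl_unit]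
    exact h7
  · obtain ⟨φ, h7, h8⟩ := lattice (ℓ := ℓ) hkc hkf hlc hlf h5 h6
    refine ⟨φ, fun E F => ?_, h8⟩
    rw [h7]
    have hK1 : ∀ v : ModN (Additive Kˣ) ℓ, (∃ x : Kˣ, (x : K) ∈ E.1 ∧
        v = ModN.mkQ ℓ (Additive.ofMul x)) ↔
        ∃ x : Kˣ, (x : K) ∈ E.1 ∧ bet ℓ K v = V.mk ℓ x := by
      intro v
      refine exists_congr fun x => and_congr_right fun _ => ?_
      rw [← bet_md, (bet ℓ K).injective.eq_iff]
      rfl
    have hL1 : ∀ w : ModN (Additive Lˣ) ℓ, (∃ y : Lˣ, (y : L) ∈ F.1 ∧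
        w = ModN.mkQ ℓ (Additive.ofMul y)) ↔
        ∃ y : Lˣ, (y : L) ∈ F.1 ∧ bet ℓ L w = V.mk ℓ y := by
      intro w
      refine exists_congr fun x => and_congr_right fun _ => ?_
      rw [← bet_md, (bet ℓ L).injective.eq_iff]
      rfl
    have hconj : ∀ v : ModN (Additive Kˣ) ℓ, conj Θ (bet ℓ K v) = bet ℓ L (Θ v) := by
      intro v
      obtain ⟨x, rfl⟩ := md_surj v
      rw [bet_md, conj_mk]
    constructor
    · intro h9
      have h10 : ∀ v, (∃ x : Kˣ, (x : K) ∈ E.1 ∧ v = ModN.mkQ ℓ (Additive.ofMul x)) ↔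
          ∃ y : Lˣ, (y : L) ∈ F.1 ∧ Θ v = ModN.mkQ ℓ (Additive.ofMul y) := by
        intro v
        rw [hK1, hL1, h9, hconj]
      ext w
      constructor
      · rintro ⟨v, hv, rfl⟩
        exact (h10 v).1 hv
      · intro hw
        refine ⟨Θ.symm w, (h10 (Θ.symm w)).2 ?_, Θ.apply_symm_apply w⟩
        rw [Θ.apply_symm_apply]
        exact hw
    · intro h9 v'
      obtain ⟨v, rfl⟩ := (bet ℓ K).surjective v'
      rw [← hK1, hconj, ← hL1]
      constructor
      · intro hv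
        have h10 : Θ v ∈ Θ '' {v | ∃ x : Kˣ, (x : K) ∈ E.1 ∧
              v = ModN.mkQ ℓ (Additive.ofMul x)} := ⟨v, hv, rfl⟩
        rw [h9] at h10
        exact h10
      · intro hv
        have h10 : Θ v ∈ {w | ∃ y : Lˣ, (y : L) ∈ F.1 ∧
              w = ModN.mkQ ℓ (Additive.ofMul y)} := hv
        rw [← h9] at h10
        obtain ⟨v', hv', h11⟩ := h10
        rw [← Θ.injective h11]
        exact hv'

end Vale.Agent.Results.P019.MilnorSubfields
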